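import Vale.Agent.P235.K5.H500.Piece
import Vale.Agent.P235.K5.H12.A

/-!
P235, line K5 (helper500): the hypothesis `hP` of `Glued.exists_A` from `PrescStmt`.
-/

set_option autoImplicit false

namespace Vale.Agent.P235.K5.H500

open SimpleGraph Vale.Agent.P235 Vale.Agent.P235.H134 Vale.Agent.P235.H56 Vale.Agent.P235.K5
open Vale.Agent.P235.H341W (capG)

/-- The pieces of the final theorem: connected, edge-exact, and, if the root clique is a triangle,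
the graph with a new vertex joined to it has no `K_{3,3}` minor. -/
def PC (c : ℝ) (V : Type) (G : SimpleGraph V) (S : Set V) : Prop :=
  G.Connected ∧ EdgeExact G c ∧ (S.ncard = 3 → ¬ IsMinor K33 (capG G S))

theorem isL1_restrict {V : Type} {F : V → V → ℝ} (h : IsL1 F) (U : Set V) :
    IsL1 fun x y : U => F x y := by
  obtain ⟨ι, _, w, f, hw, hF⟩ := h
  exact ⟨ι, inferInstance, w, fun i x => f i x, hw, fun x y => hF x y⟩

theorem ncard_sub {V : Type} {U A : Set V} (h : A ⊆ U) :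
    ({x : U | (x : V) ∈ A} : Set U).ncard = A.ncard := by
  have h1 : (Subtype.val '' ({x : U | (x : V) ∈ A} : Set U)) = A := by
    ext v
    constructor
    · rintro ⟨x, hx, rfl⟩; exact hx
    · intro hv; exact ⟨⟨v, h hv⟩, hv, rfl⟩
  rw [← Set.ncard_image_of_injective _ Subtype.val_injective, h1]

/-- **hP of `Glued.exists_A`** -/
theorem hP_of (hPr : PrescStmt) {V : Type} [Finite V] {H : SimpleGraph V} {n : ℕ} {B : ℕ → Set V}
    (h : Glued 3 H n B) {c : ℝ} (hc : 0 < c) (hc1 : c ≤ 1)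
    (hB : ∀ t < n, PC c (B t) (H.induce (B t)) {x | (x : V) ∈ Adh B t})
    {d : V → V → ℝ} (hd : IsMet d) (hG : Gen H d) :
    ∀ t < n, ∀ ρ : V → V → ℝ, IsL1 ρ →
      (∀ x ∈ Adh B t, ∀ y ∈ Adh B t, c / 12288 * d x y ≤ ρ x y ∧ ρ x y ≤ d x y) →
      ∃ F : V → V → ℝ, IsL1 F ∧ (∀ x ∈ Adh B t, ∀ y ∈ Adh B t, F x y = ρ x y) ∧
        ∀ x ∈ B t, ∀ y ∈ B t, c / 12288 * d x y ≤ F x y ∧ F x y ≤ d x y := by
  intro t ht ρ hρ hρd
  obtain ⟨hconn, hE, hno⟩ := hB t ht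
  have hsub : Adh B t ⊆ B t := fun v hv => hv.1
  have hd' : IsMet fun x y : B t => d x y :=
    ⟨fun x => hd.self _, fun x y hxy => hd.pos _ _ fun e => hxy (Subtype.ext e),
      fun x y => hd.symm _ _, fun x y z => hd.tri _ _ _⟩
  have hG' : Gen (H.induce (B t)) fun x y : B t => d x y := h.gen_bag hd hG ht
  obtain ⟨F, h1, h2, h3, h4⟩ := piece hPr hc hc1 hE hconn hd' hG'
    (S := {x | (x : V) ∈ Adh B t})
    (by rw [ncard_sub hsub]; exact h.card t ht)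
    (fun u hu v hv huv => h.clique t ht u hu v hv fun e => huv (Subtype.ext e)) hno
    (fun x y : B t => ρ x y) (isL1_restrict hρ _)
    (fun u hu v hv => (hρd u hu v hv).1) (fun u hu v hv => (hρd u hu v hv).2)
  obtain ⟨F', g1, g2⟩ := extendL1 h1
  refine ⟨F', g1, ?_, ?_⟩
  · intro x hx y hy
    exact (g2 ⟨x, hsub hx⟩ ⟨y, hsub hy⟩).trans (h2 _ hx _ hy)
  · intro x hx y hy
    have e := g2 ⟨x, hx⟩ ⟨y, hy⟩
    simp only at e
    rw [e]
    exact ⟨h3 ⟨x, hx⟩ ⟨y, hy⟩, h4 ⟨x, hx⟩ ⟨y, hy⟩⟩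

/-- **The A half of the final theorem.** -/
theorem exists_A_of (hPr : PrescStmt) {V : Type} [Finite V] {H : SimpleGraph V} {n : ℕ}
    {B : ℕ → Set V} (h : Glued 3 H n B) {c : ℝ} (hc : 0 < c) (hc1 : c ≤ 1)
    (hB : ∀ t < n, PC c (B t) (H.induce (B t)) {x | (x : V) ∈ Adh B t})
    {d : V → V → ℝ} (hd : IsMet d) (hG : Gen H d) :
    ∃ F : V → V → ℝ, IsL1 F ∧ (∀ x y, F x y ≤ d x y) ∧
      ∀ t < n, ∀ x ∈ B t, ∀ y ∈ B t, c / 12288 * d x y ≤ F x y :=
  h.exists_A hd hG (hP_of hPr h hc hc1 hB hd hG)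

end Vale.Agent.P235.K5.H500
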