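import Vale.Agent.P235.K5.H500.Bag
import Vale.Agent.P235.H56.Bound
import Vale.Agent.P235.H206.Final

/-!
P235, line K5 (helper500): the pieces without `K_{3,3}` minor.
-/

set_option autoImplicit false

namespace Vale.Agent.P235.K5.H500

open SimpleGraph Vale.Agent.P235 Vale.Agent.P235.H134 Vale.Agent.P235.H56 Vale.Agent.P235.K5
open Vale.Agent.P235.H341W (capG)

theorem minor_cap {V W : Type} {K : SimpleGraph W} {G : SimpleGraph V} (S : Set V)
    (h : IsMinor K G) : IsMinor K (capG G S) := by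
  obtain ⟨μ, h1, h2, h3⟩ := h
  refine ⟨fun a => some '' μ a, fun a => H558.conn_some (h1 a), fun a b hab => ?_,
    fun a b hab => ?_⟩
  · exact (Set.disjoint_image_iff (Option.some_injective V)).2 (h2 a b hab)
  · obtain ⟨x, hx, y, hy, hxy⟩ := h3 a b hab
    exact ⟨some x, ⟨x, hx, rfl⟩, some y, ⟨y, hy, rfl⟩, hxy⟩

/-- **[EDGE]** -/
theorem edge : ∃ c : ℝ, 0 < c ∧ c ≤ 1 ∧ ∀ (V : Type) [Finite V] (G : SimpleGraph V),
    ¬ IsMinor K33 G → EdgeExact G c := by
  obtain ⟨C, hC, h, -⟩ := H56.main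
  have hC0 : 0 < C := by linarith
  refine ⟨1 / C, by positivity, ?_, ?_⟩
  · rw [div_le_one hC0]; exact hC
  · intro V _ G hK
    exact EdgeIso.edgeExact hC0 fun hG => (h V G hG hK).1

/-- connected graphs which stay without `K_{3,3}` minor after adding a vertex joined to the root
clique are pieces -/
theorem pc_cap : ∃ c : ℝ, 0 < c ∧ c ≤ 1 ∧ ∀ (V : Type) [Finite V] (G : SimpleGraph V) (S : Set V),
    G.Connected → ¬ IsMinor K33 (capG G S) → PC c V G S := by
  obtain ⟨c, h0, h1, h⟩ := edge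
  exact ⟨c, h0, h1, fun V _ G S hG hS =>
    ⟨hG, h V G fun hm => hS (minor_cap S hm), fun _ => hS⟩⟩

/-- graphs without `K_{3,3}` minor are pieces for at most two roots -/
theorem pc_free : ∃ c : ℝ, 0 < c ∧ c ≤ 1 ∧ ∀ (V : Type) [Finite V] (G : SimpleGraph V) (S : Set V),
    G.Connected → ¬ IsMinor K33 G → S.ncard ≤ 2 → PC c V G S := by
  obtain ⟨c, h0, h1, h⟩ := edge
  exact ⟨c, h0, h1, fun V _ G S hG hK hS => ⟨hG, h V G hK, fun h3 => by omega⟩⟩

/-- graphs with an edge-exact embedding (e.g. `EdgeIso G D`) are pieces for at most two roots -/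
theorem pc_edgeIso {D : ℝ} (hD : 1 ≤ D) {V : Type} [Finite V] {G : SimpleGraph V} {S : Set V}
    (hG : G.Connected) (h : EdgeIso G D) (hS : S.ncard ≤ 2) : PC (1 / D) V G S :=
  ⟨hG, EdgeIso.edgeExact (by linarith) fun _ => h, fun h3 => by omega⟩

theorem PC.mono {c c' : ℝ} (h : c' ≤ c) {V : Type} {G : SimpleGraph V} {S : Set V}
    (hp : PC c V G S) : PC c' V G S := ⟨hp.1, hp.2.1.mono h, hp.2.2⟩

end Vale.Agent.P235.K5.H500
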