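import Vale.Agent.P235.K5.H500.Presc
import Vale.Agent.P235.K5.Cap

/-!
P235, line K5 (helper500): [SHORT3].
-/

set_option autoImplicit false

namespace Vale.Agent.P235.K5.H500

open SimpleGraph Vale.Agent.P235 Vale.Agent.P235.K5

theorem short3 : Short3Stmt := by
  intro V G d hd hG R hR ρ hρ hup
  have hpos : ∀ i j, 0 < (if i = j then (1 : ℝ) else ρ i j / d (R i) (R j)) := by
    intro i j
    split_ifs with h
    · exact one_pos
    · exact div_pos (hρ.pos i j h) (hd.pos _ _ (hR i j h).ne)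
  obtain ⟨p, -, hp⟩ := Finset.exists_min_image (Finset.univ : Finset (Fin 3 × Fin 3))
    (fun p => if p.1 = p.2 then (1 : ℝ) else ρ p.1 p.2 / d (R p.1) (R p.2))
    ⟨(0, 0), Finset.mem_univ _⟩
  set c : ℝ := if p.1 = p.2 then (1 : ℝ) else ρ p.1 p.2 / d (R p.1) (R p.2) with hc
  have hc0 : 0 < c := hpos p.1 p.2
  have hroot : Root d R c ρ := by
    refine ⟨hρ.self, hρ.symm, hρ.tri, fun i j => ?_, hup⟩
    by_cases hij : i = j
    · rw [hij, hd.self, mul_zero, hρ.self]
    · have h1 := hp (i, j) (Finset.mem_univ _)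
      simp only [if_neg hij] at h1
      have h2 := hd.pos _ _ (hR i j hij).ne
      have h3 : c ≤ ρ i j / d (R i) (R j) := h1
      rwa [le_div_iff₀ h2] at h3
  refine ⟨sh d R ρ, sh_isMet hd hroot hc0, sh_gen hd hG hroot hc0 ?_, sh_root hd hroot, sh_le, ?_⟩
  · intro i j hij
    exact hR i j fun e => hij (by rw [e])
  · exact sh_cases

end Vale.Agent.P235.K5.H500
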