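import Vale.Agent.P235.K5.Cap

/-!
P235, line K5 (helper500): prescribed metric on the adhesion SET of a piece (at most three
pairwise adjacent vertices, the empty set included), from `PrescStmt` and `piece2`.
-/

set_option autoImplicit false

namespace Vale.Agent.P235.K5.H500

open SimpleGraph Vale.Agent.P235 Vale.Agent.P235.H134 Vale.Agent.P235.H56 Vale.Agent.P235.K5
open Vale.Agent.P235.H341W (capG)

variable {V : Type}

/-- Every `L₁` metric `ρ` on `S` between `c * d` and `d` extends. -/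
def PrescOn (d : V → V → ℝ) (c : ℝ) (S : Set V) : Prop :=
  ∀ ρ : V → V → ℝ, IsL1 ρ → (∀ u ∈ S, ∀ v ∈ S, c * d u v ≤ ρ u v) →
    (∀ u ∈ S, ∀ v ∈ S, ρ u v ≤ d u v) →
    ∃ F : V → V → ℝ, IsL1 F ∧ (∀ u ∈ S, ∀ v ∈ S, F u v = ρ u v) ∧ (∀ x y, c * d x y ≤ F x y) ∧
      ∀ x y, F x y ≤ d x y

/-- at most one root -/
theorem presc_one [Finite V] {G : SimpleGraph V} {c : ℝ} (hE : EdgeExact G c)
    (hconn : G.Connected) {d : V → V → ℝ} (hd : IsMet d) (hG : Gen G d) {S : Set V}
    (hS : S.Subsingleton) : PrescOn d c S := by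
  intro ρ hρ _ _
  by_cases hex : ∃ s t, G.Adj s t
  · obtain ⟨s, t, hst⟩ := hex
    obtain ⟨F, h1, h2, h3, h4⟩ := hE d hd hG s t hst
    refine ⟨F, h1, ?_, h3, h4⟩
    intro u hu v hv
    rw [hS hu hv, h1.self, hρ.self]
  · push Not at hex
    have hsub : ∀ x y : V, x = y := by
      intro x y
      by_contra hxy
      obtain ⟨w⟩ := hconn.preconnected x y
      cases w with
      | nil => exact hxy rfl
      | cons h _ => exact hex _ _ h
    refine ⟨fun x y => 0 * |d x x - d y y|, (isL1_line fun x => d x x).smul le_rfl, ?_, ?_, ?_⟩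
    · intro u hu v hv
      rw [hsub u v, hρ.self]; simp
    · intro x y
      rw [hsub x y, hd.self]; simp
    · intro x y
      rw [hsub x y, hd.self]; simp

/-- two roots -/
theorem presc_two [Finite V] {G : SimpleGraph V} {c c0 : ℝ} (hc : 0 < c) (hc1 : c ≤ 1)
    (hc0 : c0 = c / 120) (hE : EdgeExact G c) {d : V → V → ℝ} (hd : IsMet d) (hG : Gen G d)
    {s t : V} (hst : G.Adj s t) : PrescOn d c0 {s, t} := by
  intro ρ hρ hlow hup
  have hs : s ∈ ({s, t} : Set V) := Or.inl rfl
  have ht : t ∈ ({s, t} : Set V) := Or.inr rfl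
  obtain ⟨F, h1, h2, h3, h4, -⟩ := piece2 hc hc1 hc0 hE hd hG hst (hlow s hs t ht) (hup s hs t ht)
  refine ⟨F, h1, ?_, h3, h4⟩
  intro u hu v hv
  rcases hu with rfl | rfl <;> rcases hv with rfl | rfl
  · rw [h1.self, hρ.self]
  · exact h2
  · rw [h1.symm, hρ.symm]; exact h2
  · rw [h1.self, hρ.self]

/-- **[PIECE]**: at most three roots -/
theorem piece (hP : PrescStmt) [Finite V] {G : SimpleGraph V} {c : ℝ} (hc : 0 < c) (hc1 : c ≤ 1)
    (hE : EdgeExact G c) (hconn : G.Connected) {d : V → V → ℝ} (hd : IsMet d) (hG : Gen G d)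
    {S : Set V} (hS : S.ncard ≤ 3) (hcl : ∀ u ∈ S, ∀ v ∈ S, u ≠ v → G.Adj u v)
    (hno : S.ncard = 3 → ¬ IsMinor K33 (capG G S)) : PrescOn d (c / 12288) S := by
  have hfin : S.Finite := Set.toFinite S
  have hle : c / 12288 ≤ c := div_le_self hc.le (by norm_num)
  have hcases : S.ncard ≤ 1 ∨ S.ncard = 2 ∨ S.ncard = 3 := by omega
  rcases hcases with h | h | h
  · have hsub : S.Subsingleton := by
      rcases Set.ncard_le_one hfin |>.1 h with h'
      exact fun a ha b hb => h' a ha b hb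
    exact presc_one (hE.mono hle) hconn hd hG hsub
  · obtain ⟨s, t, hne, rfl⟩ := Set.ncard_eq_two.1 h
    have hst : G.Adj s t := hcl s (Or.inl rfl) t (Or.inr rfl) hne
    have h2 : c / 12288 * 120 ≤ c := by linarith
    exact presc_two (c := c / 12288 * 120) (by positivity) (by linarith) (by ring)
      (hE.mono h2) hd hG hst
  · obtain ⟨x, y, z, hxy, hxz, hyz, rfl⟩ := Set.ncard_eq_three.1 h
    intro ρ hρ hlow hup
    let R : Fin 3 → V := ![x, y, z]
    have hRS : Set.range R = {x, y, z} := by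
      ext v
      constructor
      · rintro ⟨i, rfl⟩
        fin_cases i
        · exact Or.inl rfl
        · exact Or.inr (Or.inl rfl)
        · exact Or.inr (Or.inr rfl)
      · rintro (rfl | rfl | rfl)
        · exact ⟨0, rfl⟩
        · exact ⟨1, rfl⟩
        · exact ⟨2, rfl⟩
    have hmem : ∀ i, R i ∈ ({x, y, z} : Set V) := fun i => hRS ▸ Set.mem_range_self i
    have hinj : ∀ i j, i ≠ j → R i ≠ R j := by
      intro i j hij
      fin_cases i <;> fin_cases j
      · exact (hij rfl).elim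
      · exact hxy
      · exact hxz
      · exact hxy.symm
      · exact (hij rfl).elim
      · exact hyz
      · exact hxz.symm
      · exact hyz.symm
      · exact (hij rfl).elim
    have hadj : TriAdj G R := fun i j hij => hcl _ (hmem i) _ (hmem j) (hinj i j hij)
    have hno' : ¬ IsMinor K33 (capG G (Set.range R)) := by rw [hRS]; exact hno h
    have hcc : 0 < c / 12288 := by positivity
    have hmet : IsMet fun i j : Fin 3 => ρ (R i) (R j) := by
      refine ⟨fun i => hρ.self _, fun i j hij => ?_, fun i j => hρ.symm _ _,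
        fun i j k => hρ.tri _ _ _⟩
      exact (mul_pos hcc (hd.pos _ _ (hinj i j hij))).trans_le (hlow _ (hmem i) _ (hmem j))
    obtain ⟨F, h1, h2, h3, h4⟩ := hP V G c hc hc1 hE d hd hG R hadj hno'
      (fun i j => ρ (R i) (R j)) hmet (fun i j => hlow _ (hmem i) _ (hmem j))
      (fun i j => hup _ (hmem i) _ (hmem j))
    refine ⟨F, h1, ?_, h3, h4⟩
    intro u hu v hv
    rw [← hRS] at hu hv
    obtain ⟨i, rfl⟩ := hu
    obtain ⟨j, rfl⟩ := hv
    exact h2 i j

end Vale.Agent.P235.K5.H500
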