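import Vale.Agent.P235.Bdl.B1

/-!
P235, 3-sums, row (d) PRESC (helper500).  Prescribed (shortened) distances `ρ` on a root triple `R`:
the sum of `1/8` of an embedding of the shortened metric which is exact on `R` (TRIISO) and of
`7/8` of the collar embedding (COLLAR) has distortion at most `D` with the same `D`.
-/

set_option autoImplicit false

namespace Vale.Agent.P235.K5.H500

open Vale.Agent.P235

variable {V : Type}

theorem IsL1.add' {F G : V → V → ℝ} (hF : IsL1 F) (hG : IsL1 G) :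
    IsL1 fun x y => F x y + G x y := by
  obtain ⟨ι, _, w, c, hw, hF⟩ := hF
  obtain ⟨κ, _, w', c', hw', hG⟩ := hG
  refine ⟨ι ⊕ κ, inferInstance, Sum.elim w w', Sum.elim c c', ?_, ?_⟩
  · rintro (i | i)
    · exact hw i
    · exact hw' i
  · intro x y
    rw [Fintype.sum_sum_type]
    simp only [Sum.elim_inl, Sum.elim_inr]
    show F x y + G x y = _
    rw [hF, hG]
    rfl

theorem IsL1.smul' {F : V → V → ℝ} {a : ℝ} (ha : 0 ≤ a) (hF : IsL1 F) :
    IsL1 fun x y => a * F x y := by
  obtain ⟨ι, _, w, c, hw, hF⟩ := hF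
  refine ⟨ι, inferInstance, fun i => a * w i, c, fun i => mul_nonneg ha (hw i), ?_⟩
  intro x y
  show a * F x y = _
  rw [hF, Finset.mul_sum]
  apply Finset.sum_congr rfl
  intro i _
  ring

/-- `ρ` is a semimetric on the indices of the triple `R`, between `c * d` and `d`. -/
structure Root (d : V → V → ℝ) (R : Fin 3 → V) (c : ℝ) (ρ : Fin 3 → Fin 3 → ℝ) : Prop where
  self : ∀ i, ρ i i = 0
  symm : ∀ i j, ρ i j = ρ j i
  tri : ∀ i j k, ρ i k ≤ ρ i j + ρ j k
  low : ∀ i j, c * d (R i) (R j) ≤ ρ i j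
  up : ∀ i j, ρ i j ≤ d (R i) (R j)

/-- the metric `d` with the distances of the root triple shortened to `ρ` -/
noncomputable def sh (d : V → V → ℝ) (R : Fin 3 → V) (ρ : Fin 3 → Fin 3 → ℝ) (x y : V) : ℝ :=
  min (d x y) (Finset.univ.inf' ⟨(0, 0), Finset.mem_univ _⟩
    fun p : Fin 3 × Fin 3 => d x (R p.1) + ρ p.1 p.2 + d (R p.2) y)

section
variable {d : V → V → ℝ} {R : Fin 3 → V} {ρ : Fin 3 → Fin 3 → ℝ} {c : ℝ}

theorem sh_le (x y : V) : sh d R ρ x y ≤ d x y := min_le_left _ _

theorem sh_le' (x y : V) (i j : Fin 3) : sh d R ρ x y ≤ d x (R i) + ρ i j + d (R j) y :=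
  (min_le_right _ _).trans (Finset.inf'_le (s := Finset.univ)
    (fun p : Fin 3 × Fin 3 => d x (R p.1) + ρ p.1 p.2 + d (R p.2) y) (Finset.mem_univ (i, j)))

theorem le_sh {x y : V} {a : ℝ} (h1 : a ≤ d x y)
    (h2 : ∀ i j, a ≤ d x (R i) + ρ i j + d (R j) y) : a ≤ sh d R ρ x y :=
  le_min h1 (Finset.le_inf' _ _ fun p _ => h2 p.1 p.2)

theorem sh_cases (x y : V) : sh d R ρ x y = d x y ∨
    ∃ i j, sh d R ρ x y = d x (R i) + ρ i j + d (R j) y := by
  rcases min_cases (d x y) (Finset.univ.inf' ⟨(0, 0), Finset.mem_univ _⟩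
    fun p : Fin 3 × Fin 3 => d x (R p.1) + ρ p.1 p.2 + d (R p.2) y) with ⟨h, -⟩ | ⟨h, -⟩
  · exact Or.inl h
  · right
    obtain ⟨p, -, hp⟩ := Finset.exists_mem_eq_inf' (s := (Finset.univ : Finset (Fin 3 × Fin 3)))
      ⟨(0, 0), Finset.mem_univ _⟩ fun p : Fin 3 × Fin 3 => d x (R p.1) + ρ p.1 p.2 + d (R p.2) y
    exact ⟨p.1, p.2, h.trans hp⟩

theorem Root.nonneg (hd : IsMet d) (h : Root d R c ρ) (hc : 0 ≤ c) (i j : Fin 3) : 0 ≤ ρ i j :=
  (mul_nonneg hc (hd.nonneg _ _)).trans (h.low i j)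

theorem sh_isMet (hd : IsMet d) (h : Root d R c ρ) (hc : 0 < c) : IsMet (sh d R ρ) := by
  have n := hd.nonneg
  have hn := h.nonneg hd hc.le
  constructor
  · intro x
    apply le_antisymm
    · exact (sh_le x x).trans (hd.self x).le
    · apply le_sh (hd.self x).ge
      intro i j
      linarith [n x (R i), hn i j, n (R j) x]
  · intro x y hxy
    rcases sh_cases (d := d) (R := R) (ρ := ρ) x y with h1 | ⟨i, j, h1⟩
    · rw [h1]; exact hd.pos x y hxy
    · rw [h1]
      by_cases hxi : x = R i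
      · by_cases hyj : R j = y
        · have h2 : 0 < d (R i) (R j) := by rw [← hxi, hyj]; exact hd.pos x y hxy
          have h3 := h.low i j
          have h4 := mul_pos hc h2
          linarith [n x (R i), n (R j) y]
        · linarith [n x (R i), hn i j, hd.pos _ _ hyj]
      · linarith [hd.pos _ _ hxi, hn i j, n (R j) y]
  · have key : ∀ x y, sh d R ρ x y ≤ sh d R ρ y x := by
      intro x y
      apply le_sh
      · rw [hd.symm y x]; exact sh_le x y
      · intro i j
        refine (sh_le' x y j i).trans ?_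
        rw [h.symm j i, hd.symm x (R j), hd.symm (R i) y]
        linarith
    intro x y
    exact le_antisymm (key x y) (key y x)
  · intro x y z
    have T := hd.tri
    rcases sh_cases (d := d) (R := R) (ρ := ρ) x y with h1 | ⟨i, j, h1⟩
    · rcases sh_cases (d := d) (R := R) (ρ := ρ) y z with h2 | ⟨a, b, h2⟩
      · rw [h1, h2]; exact (sh_le x z).trans (T x y z)
      · rw [h1, h2]
        refine (sh_le' x z a b).trans ?_
        linarith [T x y (R a)]
    · rcases sh_cases (d := d) (R := R) (ρ := ρ) y z with h2 | ⟨a, b, h2⟩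
      · rw [h1, h2]
        refine (sh_le' x z i j).trans ?_
        linarith [T (R j) y z]
      · rw [h1, h2]
        refine (sh_le' x z i b).trans ?_
        have h3 := h.tri i j b
        have h4 := h.tri j a b
        have h5 := h.up j a
        linarith [T (R j) y (R a)]

theorem sh_gen {G : SimpleGraph V} (hd : IsMet d) (hG : Gen G d) (h : Root d R c ρ) (hc : 0 < c)
    (hR : ∀ i j, R i ≠ R j → G.Adj (R i) (R j)) : Gen G (sh d R ρ) := by
  intro f hf x y
  have h1 : ∀ x y, |f x - f y| ≤ d x y :=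
    hG f (fun u v huv => (hf u v huv).trans (sh_le _ _))
  have h2 : ∀ i j, |f (R i) - f (R j)| ≤ ρ i j := by
    intro i j
    by_cases hij : R i = R j
    · rw [hij, sub_self, abs_zero]; exact h.nonneg hd hc.le i j
    · refine (hf _ _ (hR i j hij)).trans ((sh_le' _ _ i j).trans ?_)
      rw [hd.self, hd.self]; linarith
  apply le_sh (h1 x y)
  intro i j
  calc |f x - f y| = |(f x - f (R i)) + (f (R i) - f (R j)) + (f (R j) - f y)| := by
        congr 1; ring
    _ ≤ |f x - f (R i)| + |f (R i) - f (R j)| + |f (R j) - f y| := abs_add_three _ _ _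
    _ ≤ _ := by linarith [h1 x (R i), h1 (R j) y, h2 i j]

theorem sh_root (hd : IsMet d) (h : Root d R c ρ) (i j : Fin 3) :
    sh d R ρ (R i) (R j) = ρ i j := by
  apply le_antisymm
  · refine (sh_le' _ _ i j).trans ?_
    rw [hd.self, hd.self]; linarith
  · apply le_sh (h.up i j)
    intro a b
    have h1 := h.tri i a j
    have h2 := h.tri a b j
    have h3 := h.up i a
    have h4 := h.up b j
    linarith

end

/-- **PRESC, metric core.** -/
theorem presc_core {d : V → V → ℝ} (hd : IsMet d) {R : Fin 3 → V} {ρ : Fin 3 → Fin 3 → ℝ}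
    {c c0 κ : ℝ} (hc : 0 < c) (hκ1 : κ ≤ 1) (hc0 : 0 < c0) (hc1 : c ≤ 5 / 16)
    (hc2 : c ≤ c0 * κ / 8) (h : Root d R c ρ)
    {F1 F2 : V → V → ℝ} (h1 : IsL1 F1) (h1u : ∀ x y, F1 x y ≤ sh d R ρ x y)
    (h1R : ∀ i j, F1 (R i) (R j) = sh d R ρ (R i) (R j))
    (h1l : ∀ x y, c0 * sh d R ρ x y ≤ F1 x y)
    (h2 : IsL1 F2) (h2u : ∀ x y, F2 x y ≤ d x y) (h2R : ∀ i j, F2 (R i) (R j) = ρ i j)
    (h2l : ∀ x y, (∃ i j, d x (R i) + ρ i j + d (R j) y < κ * d x y) →
      ∃ i j, ρ i j + (d x (R i) + d y (R j)) / 2 ≤ F2 x y) :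
    ∃ F : V → V → ℝ, IsL1 F ∧ (∀ x y, F x y ≤ d x y) ∧ (∀ i j, F (R i) (R j) = ρ i j) ∧
      ∀ x y, c * d x y ≤ F x y := by
  refine ⟨fun x y => 1 / 8 * F1 x y + 7 / 8 * F2 x y,
    IsL1.add' (IsL1.smul' (by norm_num) h1) (IsL1.smul' (by norm_num) h2), ?_, ?_, ?_⟩
  · intro x y
    have a1 := h1u x y
    have a2 := sh_le (d := d) (R := R) (ρ := ρ) x y
    have a3 := h2u x y
    show 1 / 8 * F1 x y + 7 / 8 * F2 x y ≤ d x y
    linarith
  · intro i j
    show 1 / 8 * F1 (R i) (R j) + 7 / 8 * F2 (R i) (R j) = ρ i j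
    rw [h1R, sh_root hd h, h2R]; ring
  · intro x y
    show c * d x y ≤ 1 / 8 * F1 x y + 7 / 8 * F2 x y
    have n := hd.nonneg
    by_cases hx : ∃ i j, d x (R i) + ρ i j + d (R j) y < κ * d x y
    · obtain ⟨i, j, hij⟩ := h2l x y hx
      have b1 : ρ i j ≤ F1 x y + d x (R i) + d y (R j) := by
        have e1 := h1R i j
        rw [sh_root hd h] at e1
        have e2 := h1.tri (R i) x (R j)
        have e3 := h1.tri x y (R j)
        have e4 := h1u (R i) x
        have e5 := sh_le (d := d) (R := R) (ρ := ρ) (R i) x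
        have e6 := h1u y (R j)
        have e7 := sh_le (d := d) (R := R) (ρ := ρ) y (R j)
        rw [hd.symm (R i) x] at e5
        linarith
      have b2 : c * d x y ≤ c * (d x (R i) + d (R i) (R j) + d y (R j)) := by
        apply mul_le_mul_of_nonneg_left _ hc.le
        have e1 := hd.tri x (R i) y
        have e2 := hd.tri (R i) (R j) y
        rw [hd.symm (R j) y] at e2
        linarith
      have b3 := h.low i j
      have b4 : c * (d x (R i) + d y (R j)) ≤ 5 / 16 * (d x (R i) + d y (R j)) :=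
        mul_le_mul_of_nonneg_right hc1 (by linarith [n x (R i), n y (R j)])
      have b5 : c * (d x (R i) + d (R i) (R j) + d y (R j)) =
        c * d (R i) (R j) + c * (d x (R i) + d y (R j)) := by ring
      linarith
    · push Not at hx
      have b1 : κ * d x y ≤ sh d R ρ x y ∨ d x y ≤ sh d R ρ x y := by
        rcases sh_cases (d := d) (R := R) (ρ := ρ) x y with e | ⟨i, j, e⟩
        · exact Or.inr e.ge
        · exact Or.inl (by rw [e]; exact hx i j)
      have b2 : 0 ≤ F2 x y := h2.nonneg x y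
      have b3 := h1l x y
      rcases b1 with b1 | b1
      · have b4 := mul_le_mul_of_nonneg_left b1 hc0.le
        have b5 := mul_le_mul_of_nonneg_right hc2 (n x y)
        have b6 : c0 * κ / 8 * d x y = 1 / 8 * (c0 * (κ * d x y)) := by ring
        linarith
      · have b4 := mul_le_mul_of_nonneg_left b1 hc0.le
        have b5 := mul_le_mul_of_nonneg_right hc2 (n x y)
        have b6 : c0 * κ / 8 * d x y ≤ 1 / 8 * (c0 * d x y) := by
          have b7 : κ * (c0 * d x y) ≤ 1 * (c0 * d x y) :=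
            mul_le_mul_of_nonneg_right hκ1 (mul_nonneg hc0.le (n x y))
          have b8 : c0 * κ / 8 * d x y = 1 / 8 * (κ * (c0 * d x y)) := by ring
          linarith
        linarith

end Vale.Agent.P235.K5.H500
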